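import Vale.Agent.Lib.P154.Neg.LP.Base

/-!
The data of a certificate for a restricted range of `theta`, with all its checks.
-/

namespace Vale.Agent.Lib.P154.Neg.B4200

open Vale.Agent.Lib.P154.Neg.Kron Vale.Agent.Lib.P154.Neg Vale.Agent.Lib.P154.Neg.Cst

def tX_0 : CT := (.s02 (.leaf [128, 6273, 307378] [48, 48, 48]) (.s12 (.s01 (.leaf [167, 8184, 401017] [48, 48, 48]) (.s12 (.leaf [169, 8282, 405819] [48, 48, 48]) (.leaf [179, 8772, 429829] [48, 48, 48]))) (.leaf [145, 7106, 348195] [48, 48, 48])))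
def tY1_3 : CT := (.leaf [603, 29548, 1447853] [48, 48, 48])
def tY1_4 : CT := (.leaf [625, 30626, 1500675] [48, 48, 48])
def tY1_2 : CT := .s02 tY1_3 tY1_4
def tY1_5 : CT := (.leaf [607, 29744, 1457457] [48, 48, 48])
def tY1_1 : CT := .s02 tY1_2 tY1_5
def tY1_6 : CT := (.leaf [583, 28568, 1399833] [48, 48, 48])
def tY1_0 : CT := .s02 tY1_1 tY1_6
def tY2_0 : CT := (.leaf [426, 15763, 583232] [36, 36, 36])
def tQ1_1 : BT := (.split 1 (2) (.split 3 (6) (.leaf [371, 8163, 89794, 1436705] [21, 10, 15, 6]) (.leaf [372, 8185, 90036, 1440577] [21, 10, 15, 6])) (.split 3 (6) (.split 3 (3) (.leaf [371, 8163, 89794, 1436705] [21, 10, 15, 6]) (.leaf [371, 8163, 89794, 1436705] [21, 10, 15, 6])) (.leaf [372, 8185, 90036, 1440577] [21, 10, 15, 6])))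
def tQ1_2 : BT := (.leaf [373, 8207, 90278, 1444449] [21, 10, 15, 6])
def tQ1_0 : BT := .split 3 (12) tQ1_1 tQ1_2
def tQ3_3 : BT := (.split 3 (4) (.leaf [382, 6113, 67244, 1075905] [15, 10, 15, 6]) (.split 0 (466) (.split 0 (377) (.leaf [382, 6113, 67244, 1075905] [15, 10, 15, 6]) (.leaf [383, 6129, 67420, 1078721] [15, 10, 15, 6])) (.leaf [383, 6129, 67420, 1078721] [15, 10, 15, 6])))
def tQ3_4 : BT := (.split 3 (4) (.leaf [382, 6113, 67244, 1075905] [15, 10, 15, 6]) (.split 0 (466) (.leaf [383, 6129, 67420, 1078721] [15, 10, 15, 6]) (.leaf [383, 6129, 67420, 1078721] [15, 10, 15, 6])))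
def tQ3_2 : BT := .split 1 (1) tQ3_3 tQ3_4
def tQ3_5 : BT := (.leaf [384, 6145, 67596, 1081537] [15, 10, 15, 6])
def tQ3_1 : BT := .split 0 (644) tQ3_2 tQ3_5
def tQ3_9 : BT := (.split 0 (466) (.split 3 (2) (.leaf [381, 6097, 67068, 1073089] [15, 10, 15, 6]) (.leaf [382, 6113, 67244, 1075905] [15, 10, 15, 6])) (.leaf [383, 6129, 67420, 1078721] [15, 10, 15, 6]))
def tQ3_10 : BT := (.split 3 (2) (.split 0 (466) (.split 3 (1) (.leaf [382, 6113, 67244, 1075905] [15, 10, 15, 6]) (.leaf [382, 6113, 67244, 1075905] [15, 10, 15, 6])) (.leaf [383, 6129, 67420, 1078721] [15, 10, 15, 6])) (.leaf [383, 6129, 67420, 1078721] [15, 10, 15, 6]))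
def tQ3_8 : BT := .split 1 (3) tQ3_9 tQ3_10
def tQ3_11 : BT := (.leaf [383, 6129, 67420, 1078721] [15, 10, 15, 6])
def tQ3_7 : BT := .split 3 (4) tQ3_8 tQ3_11
def tQ3_12 : BT := (.leaf [385, 6161, 67772, 1084353] [15, 10, 15, 6])
def tQ3_6 : BT := .split 0 (644) tQ3_7 tQ3_12
def tQ3_0 : BT := .split 1 (2) tQ3_1 tQ3_6

/-- the data -/
def C : Cst where
  A := ⟨3, 3, 0, 3, 2, 1⟩
  a := (28, 3)
  b := (30, 1)
  c := (63, 2)
  r1 := (3, 4)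
  r2 := (11, 12)
  rho1 := (0, 1)
  rho2 := (11, 12)
  g := (9, 25000)
  er := (1, 2)
  kap := (0, 1)
  thm := (1, 8)
  t1 := (41, 100)
  t2 := (21, 50)
  m0 := (71, 150)
  kp0 := (3, 2)
  W := (.add (.add (.add (.add (.add (.add (.add (.mul (.rat (-2777) 100000) (.pow (.var 1) 2)) (.mul (.rat (1) 2) (.var 0))) (.mul (.mul (.rat (3393) 200000) (.var 0)) (.var 1))) (.mul (.mul (.rat (-413) 100000) (.var 0)) (.pow (.var 1) 2))) (.mul (.rat (3133) 125000) (.pow (.var 0) 2))) (.mul (.mul (.rat (1223) 1000000) (.pow (.var 0) 2)) (.var 1))) (.mul (.rat (119) 200000) (.pow (.var 0) 3))) (.mul (.rat (1769) 1000000) (.pow (.var 0) 4)))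
  V1h := (.add (.add (.add (.add (.add (.add (.add (.add (.mul (.rat (-1) 16) (.var 1)) (.mul (.rat (-137299) 2500000) (.pow (.var 1) 2))) (.mul (.rat (1) 8) (.var 0))) (.mul (.mul (.rat (-17319) 2500000) (.var 0)) (.var 1))) (.mul (.mul (.rat (87347) 2500000) (.var 0)) (.pow (.var 1) 2))) (.mul (.rat (182741) 10000000) (.pow (.var 0) 2))) (.mul (.mul (.rat (-125369) 2000000) (.pow (.var 0) 2)) (.var 1))) (.mul (.rat (13617) 1250000) (.pow (.var 0) 3))) (.mul (.rat (1861) 1250000) (.pow (.var 0) 4)))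
  V2h := (.add (.add (.add (.add (.mul (.rat (1) 216) (.var 1)) (.mul (.rat (-10781) 2500000) (.pow (.var 1) 2))) (.mul (.mul (.rat (819) 500000) (.var 0)) (.var 1))) (.mul (.rat (-2847) 5000000) (.pow (.var 0) 2))) (.mul (.rat (53) 100000) (.pow (.var 0) 3)))
  Xi := (.add (.add (.add (.rat (4) 1) (.mul (.rat (-339811) 50000) (.var 0))) (.mul (.rat (6698683) 500000) (.pow (.var 0) 2))) (.mul (.rat (-1203341) 20000) (.pow (.var 0) 3)))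
  Ek := (.rat 0 1)
  Sz := (.add (.add (.add (.add (.mul (.rat (1) 3) (.var 0)) (.mul (.rat (1) 9) (.pow (.var 0) 2))) (.mul (.rat (5) 81) (.pow (.var 0) 3))) (.mul (.rat (10) 243) (.pow (.var 0) 4))) (.mul (.rat (22) 729) (.pow (.var 0) 5)))
  a0 := 500
  b0 := 553
  c0 := 721
  bRho := (0, 36, 125)
  bBeta := (0, 4, 4)
  bT := (41, 42, 100)
  bKap := (0, 24, 16)
  bEps := (0, 1, 1000)
  bSig := (0, 177, 500)
  bNu := (0, 817, 1000)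
  bTh := (0, 8, 64)
  bZ := (0, 10584, 15625)
  tX := tX_0
  tY1 := tY1_0
  tY2 := tY2_0
  tM1 := (.leaf [11, 78, 547] [6, 6, 6])
  tM2 := (.leaf [10, 71, 498] [6, 6, 6])
  tN1 := (.leaf [13, 92, 645] [6, 6, 6])
  tN2 := (.leaf [12, 85, 596] [6, 6, 6])
  tQ1 := tQ1_0
  tQ2 := (.leaf [561, 12343, 197489, 2172380] [21, 15, 10, 15])
  tW := (.leaf [58, 523] [8, 8])
  tK := (.leaf [118, 827] [6, 5])
  tS1 := (.leaf [86, 431] [4, 4])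
  tS2 := (.leaf [92, 461] [4, 4])
  tC := (.leaf [75, 301, 1205] [3, 3, 4])
  tXi := (.leaf [44, 177] [3, 0])
  tE := (.leaf [1, 2] [0, 0])
  tZ := (.leaf [259] [15])

/-- the further data -/
def X : Ext where
  rho0 := (36, 125)
  bR3 := (288, 1000, 1000)
  bRW := (0, 1, 1)
  tQ3 := tQ3_0

def btQ1_root : List (ℤ × ℤ × ℕ) := [C.bRho, C.bBeta, C.bT, C.bKap]

def btQ1_0l : List (ℤ × ℤ × ℕ) := btQ1_root.set 3 ((btQ1_root.getD 3 (0, 1, 1)).1, (12), (btQ1_root.getD 3 (0, 1, 1)).2.2)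

def btQ1_0r : List (ℤ × ℤ × ℕ) := btQ1_root.set 3 ((12), (btQ1_root.getD 3 (0, 1, 1)).2.1, (btQ1_root.getD 3 (0, 1, 1)).2.2)

def btQ3_root : List (ℤ × ℤ × ℕ) := [X.bR3, C.bBeta, C.bT, C.bTh]

def btQ3_0l : List (ℤ × ℤ × ℕ) := btQ3_root.set 1 ((btQ3_root.getD 1 (0, 1, 1)).1, (2), (btQ3_root.getD 1 (0, 1, 1)).2.2)

def btQ3_0r : List (ℤ × ℤ × ℕ) := btQ3_root.set 1 ((2), (btQ3_root.getD 1 (0, 1, 1)).2.1, (btQ3_root.getD 1 (0, 1, 1)).2.2)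

def btQ3_1l : List (ℤ × ℤ × ℕ) := btQ3_0l.set 0 ((btQ3_0l.getD 0 (0, 1, 1)).1, (644), (btQ3_0l.getD 0 (0, 1, 1)).2.2)

def btQ3_1r : List (ℤ × ℤ × ℕ) := btQ3_0l.set 0 ((644), (btQ3_0l.getD 0 (0, 1, 1)).2.1, (btQ3_0l.getD 0 (0, 1, 1)).2.2)

def btQ3_2l : List (ℤ × ℤ × ℕ) := btQ3_1l.set 1 ((btQ3_1l.getD 1 (0, 1, 1)).1, (1), (btQ3_1l.getD 1 (0, 1, 1)).2.2)

def btQ3_2r : List (ℤ × ℤ × ℕ) := btQ3_1l.set 1 ((1), (btQ3_1l.getD 1 (0, 1, 1)).2.1, (btQ3_1l.getD 1 (0, 1, 1)).2.2)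

def btQ3_6l : List (ℤ × ℤ × ℕ) := btQ3_0r.set 0 ((btQ3_0r.getD 0 (0, 1, 1)).1, (644), (btQ3_0r.getD 0 (0, 1, 1)).2.2)

def btQ3_6r : List (ℤ × ℤ × ℕ) := btQ3_0r.set 0 ((644), (btQ3_0r.getD 0 (0, 1, 1)).2.1, (btQ3_0r.getD 0 (0, 1, 1)).2.2)

def btQ3_7l : List (ℤ × ℤ × ℕ) := btQ3_6l.set 3 ((btQ3_6l.getD 3 (0, 1, 1)).1, (4), (btQ3_6l.getD 3 (0, 1, 1)).2.2)

def btQ3_7r : List (ℤ × ℤ × ℕ) := btQ3_6l.set 3 ((4), (btQ3_6l.getD 3 (0, 1, 1)).2.1, (btQ3_6l.getD 3 (0, 1, 1)).2.2)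

def btQ3_8l : List (ℤ × ℤ × ℕ) := btQ3_7l.set 1 ((btQ3_7l.getD 1 (0, 1, 1)).1, (3), (btQ3_7l.getD 1 (0, 1, 1)).2.2)

def btQ3_8r : List (ℤ × ℤ × ℕ) := btQ3_7l.set 1 ((3), (btQ3_7l.getD 1 (0, 1, 1)).2.1, (btQ3_7l.getD 1 (0, 1, 1)).2.2)

end Vale.Agent.Lib.P154.Neg.B4200
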